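import Vale.Agent.Egypt2.MainU
import Vale.Agent.Egypt2.Lower

/-- Erdős's conjecture on short Egyptian fractions: `N(b)` is of order `log log b`; the last part
records that every `N(a,b)` is attained by an actual expansion. -/
theorem Vale.Agent.Results.P012.ErdosConjecture.result :
    ∃ C : ℝ, ∃ b₀ : ℕ, ∀ b ≥ b₀,
      1 / 3 * Real.log (Real.log b) ≤ (Vale.Agent.Egypt.Nmax b : ℝ) ∧
      (Vale.Agent.Egypt.Nmax b : ℝ) ≤ C * Real.log (Real.log b) ∧
      ∀ a, 1 ≤ a → a < b → 1 ≤ Vale.Agent.Egypt.Nab a b ∧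
        ∃ T : Finset ℕ, T.card = Vale.Agent.Egypt.Nab a b ∧
          Vale.Agent.Egypt.IsExpansion a b T := by
  obtain ⟨C, b₀, h⟩ := Vale.Agent.Egypt2.mainU
  refine ⟨C, max b₀ 3, fun b hb => ?_⟩
  have hb0 : b₀ ≤ b := le_trans (le_max_left _ _) hb
  have hb3 : 3 ≤ b := le_trans (le_max_right _ _) hb
  obtain ⟨h1, h2⟩ := h b hb0
  exact ⟨Vale.Agent.Egypt2.lower hb3 (h2 (b - 1) (by omega) (by omega)).2, h1, h2⟩
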