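import Vale.Agent.Egypt.Final

/-- `N(b) = O(log log b · log log log b)`; the second part records that `N(a,b)` is attained. -/
theorem Vale.Agent.Results.P012.ShortEgyptian.result :
    ∃ C : ℝ, ∃ b₀ : ℕ, ∀ b ≥ b₀,
      (Vale.Agent.Egypt.Nmax b : ℝ) ≤
        C * Real.log (Real.log b) * Real.log (Real.log (Real.log b)) ∧
      ∀ a, 1 ≤ a → a < b → 1 ≤ Vale.Agent.Egypt.Nab a b ∧
        ∃ T : Finset ℕ, T.card = Vale.Agent.Egypt.Nab a b ∧ Vale.Agent.Egypt.IsExpansion a b T :=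
  Vale.Agent.Egypt.main
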